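import Vale.Agent.P270V.Top
import Vale.Agent.P270H.All20
import Vale.Agent.P285L.Defs

/-!
# P270V: all the cases
-/

open Vale.Agent.P272.K Vale.Agent.P285.H281.FD Vale.Agent.P281Z Vale.Agent.P277
open Vale.Agent.P285Z (St.logCan St.Divisor)
open Vale.Agent.P285N.Tp (Rd Wf rows o1g)
open Vale.Agent.P285N.St (SubPair Psef Iso)
open Vale.Agent.P285S.St (Covered HasSec Kappa back)
open Vale.Agent.P285.H716.AB (NumDim)
open Vale.Agent.P285L (BIR DSF dat_of)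
open Vale.Agent.P285L.St (Setup NumSemiampleX)

namespace Vale.Agent.P270V

variable {n : ℕ} {V : Mf n} {Q : Rd V} {D : Bd V.X} {t : D.ι → V.X → ℂ} {q : ℕ}
  {C M : Bd V.X} {w : Wf V}

/-- the cases -/
abbrev Cs (w : Wf V) (C M L : Bd V.X) : Prop :=
  n ≤ 4 ∨ (∃ r ≤ 1, NumDim w L r) ∨ ∃ d r, n ≤ d + r + 4 ∧ (d = 0 ∨ Covered n d L) ∧
    (r = 0 ∨ (HasSec n C ∨ n ≤ 5) ∧ ∃ i j, Kappa n r ((C.pow i).mul (M.pow j)))

theorem all1 (g : KG) (hQ : Q.Ok) (hw : IsKahler w) (h : SubPair n Q.E Q.s D t q C)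
    (hC : Psef n C) (hM : IsLB n M) (hn : Nef w M) (hi : Iso n Q.L (C.mul M))
    (hc : Cs w C M Q.L) : NumSemiample n Q.L := by
  have k := fun hd => P270G.gp1 rows (P270G.ga4 n hd) (P270G.efq4 n hd) hQ hw h hC hM hn hi
  rcases hc with hd | ⟨r, hr, h1⟩ | ⟨d, r, h1, h2, rfl | ⟨h3, i, j, h4⟩⟩
  · exact k hd
  · exact rows.gab1 o1g hQ hw h hC hM hn hi hr h1
  · exact h2.elim (fun e => k (by omega)) (P270H.cv1 P270H.cbg hQ hw h hC hM hn hi h1)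
  · exact kv1 g hQ hw h hC hM hn hi h3 h4 h1 h2

theorem all0 (g : KG) (hc : ConnectedSpace V.X) (hP : V.Prj) (hw : IsKahler w)
    (hD : St.Divisor n D t) (hq : 1 ≤ q) (hk : Klt n q D t) (hC : Psef n (St.logCan n q D))
    (hM : IsLB n M) (hm : Nef w M) (hn : Nef w ((St.logCan n q D).mul M))
    (h : Cs w (St.logCan n q D) M ((St.logCan n q D).mul M)) :
    NumSemiample n ((St.logCan n q D).mul M) := by
  have hL := lb_mul (lb_mul (lb_pow (P277Z.Slc.isLB_can (n := n)) q) hD.lb) hM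
  obtain ⟨⟨A, N, S, hQ⟩, k⟩ := P285N.Tp.smo n V w _ hc hP hw hL hn
  exact all1 g hQ hw (k D t q hD hq hk) hC hM hm (P285N.Tp.iso_refl hL) h

theorem allx (g : KG) (b : BIR) (f : DSF) (hc : ConnectedSpace V.X) (hP : V.Prj)
    (hw : IsKahler w) {X : CSp} {C₀ M₀ : Bd X.pt} {μ : V.X → X.pt} {E : Bd V.X}
    {s : E.ι → V.X → ℂ} (h1 : Setup n X M₀ μ E s) (h2 : Setup n X (C₀.mul M₀) μ E s)
    (h : SubPair n E s D t q (back μ C₀)) (hC : Psef n (back μ C₀))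
    (hs : Cs w (back μ C₀) (back μ M₀) (back μ (C₀.mul M₀))) :
    NumSemiampleX n X μ (C₀.mul M₀) := by
  obtain ⟨A, N, S, Z, k1⟩ := dat_of hc hP h1
  obtain ⟨A', N', S', Z', k2⟩ := dat_of hc hP h2
  have b1 := b n V X A M₀ N S μ Z E s k1
  have b2 := b n V X A' _ N' S' μ Z' E s k2
  exact f n V X A' _ N' S' μ Z' E s k2 (all1 (Q := ⟨_, _, _, _, E, s⟩) g ⟨hc, hP, b2⟩ hw h hC
    b1.res.lbL (P285N.Tp.N2.nefL ⟨_, _, _, _, E, s⟩ ⟨hc, hP, b1⟩ hw)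
    (P285N.Tp.iso_refl b2.res.lbL) hs)

end Vale.Agent.P270V
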