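import Vale.Agent.P270V.Mpm
import Vale.Agent.P270V.Gf071
import Vale.Agent.P270U.Mp0
import Vale.Agent.P285T.Cb.Hlp2

/-!
# P270V, row MPU: the map on a model of the base
-/

open Set
open Vale.Agent.P272.K Vale.Agent.P285.H281.FD Vale.Agent.P281Z Vale.Agent.P280Z
open Vale.Agent.P277.HD (pull)
open Vale.Agent.P285W.J
open Vale.Agent.P285S (Pse)
open Vale.Agent.P285T.Cb.Wpr (ex_cp)
open Vale.Agent.P270H

namespace Vale.Agent.P270V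

theorem mpu36 (h1 : P270U.MPA) (h2 : P270U.MPB) : MPU := by
  intro T hT hF w e V Q M U C E hU r z i j W τ S hτ P B pC lB eB ⟨J, s, hJ, s1, s2⟩ pW lP hz eP
  obtain ⟨S₀, hπ⟩ := hU.md
  have := hU.fb.conn
  have := hU.fb.connY
  have cW := hτ.conn
  have lL : IsLB _ Q.L := hU.q.bir.res.lbL
  have hf := hU.fb.fibn.hol
  obtain ⟨X₁, f₁, κ₁, _, G₁, δ₁, u, a1, a2, -, -, pX⟩ :=
    P285T.Cb.bcp_row _ _ M W τ S hU.fb hτ hU.ok.prj pW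
  obtain ⟨S₁, hu⟩ := a2.mu
  have lJ := lb_pow lB J
  have l1 := hπ.hol.lb lJ
  have l2 := hu.hol.lb l1
  have t1 := fun b => hπ.hol.sec (s1 b)
  obtain ⟨X₂, v, S₂, R, γ, b1, b2, b3, b4, b5⟩ := h1 _ r X₁ _ _ ⟨a1.conn, pX⟩ l2
    (fun b => hu.hol.sec (t1 b)) (P270U.Mp0H.rk_pull hu l1 t1 (P270U.Mp0H.rk_pull hπ lJ s1 s2))
  have := a1.conn
  have m1 := lb_zp hU.lbE (-(1 : ℕ))
  have m2 := lb_mul hU.lbD m1
  have m3 := lb_mul (lb_pow hU.lbE i) (lb_pow m2 j)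
  have m4 := lb_pow m3 J
  have c4 : T.c1 M.Y (((E.pow i).mul ((U.D.mul (zp E (-(1 : ℕ)))).pow j)).pow J) = (J : ℝ) •
      ((i : ℝ) • T.c1 M.Y E + (j : ℝ) • (T.c1 M.Y U.D - T.c1 M.Y E)) := by
    rw [hT.c1.pow _ _ _ m3, hT.c1.mul _ _ _ (lb_pow hU.lbE i) (lb_pow m2 j),
      hT.c1.pow _ _ _ hU.lbE, hT.c1.pow _ _ _ m2, hT.c1.mul _ _ _ hU.lbD m1, c1_zp hT hU.lbE,
      Nat.cast_one, one_smul, ← sub_eq_add_neg]
  obtain ⟨cX, kX⟩ := ex_cp hT M.X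
  have c1 : T.c1 M.X U.P = (U.k : ℝ) • T.pull hπ.hol (T.c1 V C) := by
    rw [← kX _ hU.ok.lb, ← hT.c1.pull hπ.hol _ hU.lbC, ← kX _ (hπ.hol.lb hU.lbC),
      Nat.cast_smul_eq_nsmul, ← map_nsmul]
    exact congrArg cX hU.cl
  have c2 : T.c1 M.X (uL U) = (U.k : ℝ) • T.pull hπ.hol (T.c1 V Q.L) := by
    rw [hT.c1.pow _ _ _ (hπ.hol.lb lL), hT.c1.pull hπ.hol _ lL]
  have g := Fibn.modif a1.fibn b1
  have e6 : ∀ a, T.pull g.hol (T.pull hτ.hol a) =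
      T.pull b1.hol (T.pull hu.hol (T.pull hf a)) := fun a => by
    rw [← hT.rg.pull_comp g.hol hτ.hol (hτ.hol.comp g.hol) fun _ => rfl,
      ← hT.rg.pull_comp hu.hol hf (hf.comp hu.hol) fun _ => rfl]
    exact hT.rg.pull_comp b1.hol _ _ (fun x => (a2.comm (v x)).symm) _
  have k1 := h2 T hT hF _ w r (U.c * U.k) X₂ W _ g _ _ R γ ⟨b1.conn, b2⟩ ⟨cW, pW⟩ (b1.hol.lb l2)
    (hτ.hol.lb m4) (Nat.mul_pos hU.cp hU.kp) (by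
      rw [hT.c1.pull hτ.hol _ m4, e6, hT.c1.pull b1.hol _ l2, hT.c1.pull hu.hol _ l1,
        hT.c1.pull hπ.hol _ lJ, ← map_smul, ← map_smul, c4, hT.c1.pow _ _ _ lB, eB]
      refine congrArg _ (congrArg _ ?_)
      simp only [map_smul, map_add, map_sub]
      rw [hU.cD, hU.cE, c1, c2, Nat.cast_mul]
      module) b3 b4 b5
  have p1 : Pse M.Y (cls w E) := psb T hT _ w M.X M.Y M.f hf U.P E U.c ⟨hU.fb.conn, hU.ok.prj⟩
    ⟨hU.fb.connY, hU.prj⟩ hU.fb.fibn.surj hU.ok.lb hU.lbE hU.cE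
    (hU.cl ▸ pse_up71 hπ hU.q.prj hU.lbC pC U.k)
  have lE := hτ.hol.lb hU.lbE
  obtain ⟨z, rfl⟩ := Nat.exists_eq_add_of_lt hz
  refine ⟨(i + j) * J, mpm T hT w r (J * j) J W _ _ (pull τ E) (T.pull hτ.hol
    ((((i + j) * z : ℕ) : ℝ) • T.c1 M.Y U.D + (i : ℝ) • (T.c1 M.Y U.D - T.c1 M.Y E))) ⟨cW, pW⟩
    (hτ.hol.lb m4) (lb_pow lP _) lE ?_ (nf_pull hT hτ.hol (nf_add hT
      (nf_smul hT (Nat.cast_nonneg _) (nf_of hT hU.prj hU.lbD hU.nfD))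
      (nf_smul hT (Nat.cast_nonneg _) hU.nfE))) ?_ k1⟩
  · simpa only [one_smul, cls_pull hτ.hol hU.lbE] using Gup32.ps hτ p1 1
  · rw [hT.c1.pow _ _ _ lP, eP, hT.c1.pull hτ.hol _ m4, c4, hT.c1.pull hτ.hol _ hU.lbE]
    simp only [map_smul, map_add, map_sub]
    push_cast
    module

end Vale.Agent.P270V
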