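import Vale.Agent.P270V.All37
import Vale.Agent.P270V.Mpu36
import Vale.Agent.P270U.Mpbb

/-!
# P270V: KG
-/

namespace Vale.Agent.P270V.A37

/-- **KG** -/
theorem kg : KG := kg_mpu (mpu36 P270U.mpa P270U.mpbb)

end Vale.Agent.P270V.A37
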