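import Vale.Agent.P270V.Num
import Vale.Agent.P270V.Kg37
import Vale.Agent.P270V.Fin
import Vale.Agent.P270U.Mp0

/-!
# P270V: all the cases, numerical version
-/

open Vale.Agent.P272.K Vale.Agent.P285.H281.FD Vale.Agent.P281Z Vale.Agent.P277
open Vale.Agent.P285Z (St.logCan St.Divisor)
open Vale.Agent.P285N.Tp (Rd Wf rows o1g)
open Vale.Agent.P285N.St (SubPair Psef Iso)
open Vale.Agent.P285S.St (Covered HasSec Kappa back)
open Vale.Agent.P285.H716.AB (NumDim)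
open Vale.Agent.P285L (BIR DSF dat_of)
open Vale.Agent.P285L.St (Setup NumSemiampleX)
open Vale.Agent.P270H Vale.Agent.P270U

namespace Vale.Agent.P270V

theorem kn : KN :=
  kn_of cbg P270G.nsd (st071 ds2) crp fk03 (fk1_of rf) P285T.Cb.one0 P285T.Cb.cbf
    (wpr53 (nzt61 rf) (hor61 rf) P285T.Cb.cle59 P285T.Cb.zar1b P285T.Cb.zar97) (fpd_of lam) psb
    amb gdw (gup3_of fpu) end3 fke ned tru gf062 (mp0_of mpa) mpm
    (mpu36 mpa mpbb) A37.bgs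

variable {n : ℕ} {V : Mf n} {Q : Rd V} {D : Bd V.X} {t : D.ι → V.X → ℂ} {q : ℕ}
  {C M : Bd V.X} {w : Wf V}

/-- the cases -/
abbrev Cn (w : Wf V) (C M L : Bd V.X) : Prop :=
  n ≤ 4 ∨ (∃ r ≤ 1, NumDim w L r) ∨ ∃ d r, n ≤ d + r + 4 ∧ (d = 0 ∨ Covered n d L) ∧
    (r = 0 ∨ (HasSec n C ∨ n ≤ 5) ∧ ∃ i j F, IsLB n F ∧ Flat n F ∧
      Kappa n r (((C.pow i).mul (M.pow j)).mul F))

theorem aln1 (g : KN) (hQ : Q.Ok) (hw : IsKahler w) (h : SubPair n Q.E Q.s D t q C)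
    (hC : Psef n C) (hM : IsLB n M) (hn : Nef w M) (hi : Iso n Q.L (C.mul M))
    (hc : Cn w C M Q.L) : NumSemiample n Q.L := by
  have k := fun hd => P270G.gp1 rows (P270G.ga4 n hd) (P270G.efq4 n hd) hQ hw h hC hM hn hi
  rcases hc with hd | ⟨r, hr, h1⟩ | ⟨d, r, h1, h2, rfl | ⟨h3, i, j, F, f1, f2, h4⟩⟩
  · exact k hd
  · exact rows.gab1 o1g hQ hw h hC hM hn hi hr h1
  · exact h2.elim (fun e => k (by omega)) (P270H.cv1 P270H.cbg hQ hw h hC hM hn hi h1)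
  · exact kn1 g hQ hw h hC hM hn hi h3 f1 f2 h4 h1 h2

theorem aln0 (g : KN) (hc : ConnectedSpace V.X) (hP : V.Prj) (hw : IsKahler w)
    (hD : St.Divisor n D t) (hq : 1 ≤ q) (hk : Klt n q D t) (hC : Psef n (St.logCan n q D))
    (hM : IsLB n M) (hm : Nef w M) (hn : Nef w ((St.logCan n q D).mul M))
    (h : Cn w (St.logCan n q D) M ((St.logCan n q D).mul M)) :
    NumSemiample n ((St.logCan n q D).mul M) := by
  have hL := lb_mul (lb_mul (lb_pow (P277Z.Slc.isLB_can (n := n)) q) hD.lb) hM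
  obtain ⟨⟨A, N, S, hQ⟩, k⟩ := P285N.Tp.smo n V w _ hc hP hw hL hn
  exact aln1 g hQ hw (k D t q hD hq hk) hC hM hm (P285N.Tp.iso_refl hL) h

theorem alnx (g : KN) (b : BIR) (f : DSF) (hc : ConnectedSpace V.X) (hP : V.Prj)
    (hw : IsKahler w) {X : CSp} {C₀ M₀ : Bd X.pt} {μ : V.X → X.pt} {E : Bd V.X}
    {s : E.ι → V.X → ℂ} (h1 : Setup n X M₀ μ E s) (h2 : Setup n X (C₀.mul M₀) μ E s)
    (h : SubPair n E s D t q (back μ C₀)) (hC : Psef n (back μ C₀))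
    (hs : Cn w (back μ C₀) (back μ M₀) (back μ (C₀.mul M₀))) :
    NumSemiampleX n X μ (C₀.mul M₀) := by
  obtain ⟨A, N, S, Z, k1⟩ := dat_of hc hP h1
  obtain ⟨A', N', S', Z', k2⟩ := dat_of hc hP h2
  have b1 := b n V X A M₀ N S μ Z E s k1
  have b2 := b n V X A' _ N' S' μ Z' E s k2
  exact f n V X A' _ N' S' μ Z' E s k2 (aln1 (Q := ⟨_, _, _, _, E, s⟩) g ⟨hc, hP, b2⟩ hw h hC
    b1.res.lbL (P285N.Tp.N2.nefL ⟨_, _, _, _, E, s⟩ ⟨hc, hP, b1⟩ hw)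
    (P285N.Tp.iso_refl b2.res.lbL) hs)

end Vale.Agent.P270V
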