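import Vale.Agent.P270V.Defs
import Vale.Agent.P270H.Psb
import Vale.Agent.P270H.Gup32

/-!
# P270V, row MPM: monotonicity
-/

open Set
open Vale.Agent.P272.K Vale.Agent.P285.H281.FD Vale.Agent.P281Z Vale.Agent.P280Z
open Vale.Agent.P277.HD (pull)
open Vale.Agent.P285W.J
open Vale.Agent.P285S (Pse)
open Vale.Agent.P285S.Tp (ef_add ef_smul)
open Vale.Agent.P285T.Cb.Wpr (ex_cls ex_cp)
open Vale.Agent.P270H

namespace Vale.Agent.P270V

namespace MpmH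

variable {n : ℕ} {W : Mf n}

theorem add [ConnectedSpace W.X] {β γ : Pic n W.X} (h : Pse W β) (h' : Pse W γ) :
    Pse W (β + γ) := by
  obtain ⟨η, h⟩ := h
  obtain ⟨η', h'⟩ := h'
  refine ⟨η + η', fun k => ?_⟩
  obtain ⟨j, j0, e⟩ := h k
  obtain ⟨j', j1, e'⟩ := h' k
  refine ⟨j' * j, Nat.mul_pos j1 j0, (congrArg (P285S.Ef W) ?_).mp
    (ef_add (ef_smul e j') (ef_smul e' j))⟩
  module

theorem nef {T : CT} (hT : T.OK) [Nonempty W.X] (pW : W.Prj) {D : Bd W.X} (hD : IsLB n D)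
    (h : Nf T W (T.c1 W D)) : Pse W (cls n D) := by
  obtain ⟨H, lH, pH⟩ := pW
  refine ⟨cls n H, fun k => ?_⟩
  have l1 := lb_mul (lb_pow hD k) lH
  have := PsbH.ef_kc hT l1 (hT.c1.pos _ _ l1 (Gup32.tp hT hD h H lH pH k))
  rwa [cls_mul (lb_pow hD k) lH, cls_pow hD] at this

end MpmH

/-- row MPM -/
theorem mpm : MPM := by
  rintro T hT d r i j Z B L E x cZ lB lL lE pE nx e ⟨W, τ, S, hτ, pW, Y, H, g, h1, h2, h3, h4, h5, h6⟩
  have := cZ.conn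
  have := hτ.conn
  have hh := hτ.hol
  obtain ⟨D, lD, eD⟩ := ex_cls (cls d L - cls d B - i • cls d E)
  obtain ⟨c, hc⟩ := ex_cp hT Z
  have e1 : T.c1 Z D = (j : ℝ) • x := by
    rw [← hc D lD, eD, map_sub, map_sub, map_nsmul, hc L lL, hc B lB, hc E lE, e,
      ← Nat.cast_smul_eq_nsmul ℝ]
    abel
  have p1 := MpmH.nef hT pW (hh.lb lD) (by
    rw [hT.c1.pull hh _ lD, e1]
    exact nf_pull hT hh (nf_smul hT (Nat.cast_nonneg j) nx))
  refine ⟨W, τ, S, hτ, pW, Y, H, g, h1, h2, h3, h4, h5, (congrArg (Pse W) ?_).mp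
    (MpmH.add (MpmH.add h6 (Gup32.ps hτ pE i)) p1)⟩
  rw [cls_pull hh lD, eD, map_sub, map_sub, map_nsmul, cls_pull hh lL, cls_pull hh lB]
  abel

end Vale.Agent.P270V
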