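import Vale.Agent.P270U.Defs

/-!
# P270V: nef dimension at most `κ(i C + j M) + 4` (rows)
-/

open Set
open Vale.Agent.P272.K Vale.Agent.P285.H281.FD Vale.Agent.P281Z Vale.Agent.P280Z
open Vale.Agent.P277.HD (pull)
open Vale.Agent.P285N (Pr)
open Vale.Agent.P285N.Tp (Rd FLC Eff)
open Vale.Agent.P285N.St (SubPair Iso Psef)
open Vale.Agent.P285W.J (Tr Nf)
open Vale.Agent.P285W.Bs (Cp)
open Vale.Agent.P285S (Pse)
open Vale.Agent.P270G (ForP)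
open Vale.Agent.P270H (Gf)
open Vale.Agent.P270U (Kp Dm Mp Bgn)

namespace Vale.Agent.P270V

/-- ROW REL: from the fibres to the total space -/
def REL : Prop := ∀ d, ForP d fun T _ _ _ A m N => FLC T → ∀ (L M : Bd A.Z.X) (a r : ℕ),
  Gf A m N L M → Dm A.Z (a • cls d L) r → d ≤ r + 4 → Neg d (Tr T A.Z (T.c1 A.Z L)) →
  Bgn A m L

/-- **BGS**: the base -/
def BGS : Prop := ∀ d, ForP d fun T _ _ _ A m N => FLC T → ∀ (L M : Bd A.Z.X) (a r : ℕ),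
  Gf A m N L M → Mp A.Z (L.pow a) r → d ≤ r + 4 → Neg d (Tr T A.Z (T.c1 A.Z L)) →
  P270H.Sm T A.Z (T.c1 A.Z L)

/-- ROW MPM: monotonicity -/
def MPM : Prop := ∀ T : CT, T.OK → ∀ (d r i j : ℕ) (Z : Mf d) (B L E : Bd Z.X) (x : T.H Z), Cp Z →
  IsLB d B → IsLB d L → IsLB d E → Pse Z (cls d E) → Nf T Z x →
  T.c1 Z L = T.c1 Z B + (i : ℝ) • T.c1 Z E + (j : ℝ) • x → Mp Z B r → Mp Z L r

/-- ROW MPU: the map on a model of the base -/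
def MPU : Prop := P270H.ForU fun T w e V Q M U C _ => ∀ (r z i j : ℕ) (W : Mf w)
  (τ : W.X → M.Y.X) (S : Set M.Y.X) (hτ : Modif w τ S) (P : Bd W.X) (B : Bd V.X),
  Psef (w + (e + 1)) C → IsLB (w + (e + 1)) B →
  T.c1 V B = (i : ℝ) • T.c1 V C + (j : ℝ) • (T.c1 V Q.L - T.c1 V C) → Kp V B r → W.Prj →
  IsLB w P → 0 < z → T.c1 W P = (z : ℝ) • T.pull hτ.hol (T.c1 M.Y U.D) → ∃ a, Mp W (P.pow a) r

/-- ROW MP0: the map on a model of the total space -/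
def MP0 : Prop := ∀ T : CT, T.OK → FLC T → ∀ (n r k i j : ℕ) (V Z : Mf n) (π : Z.X → V.X)
  (S : Set V.X) (L C M : Bd V.X), Cp V → Z.Prj → Modif n π S → IsLB n L → IsLB n C → IsLB n M →
  Psef n C → P285N.Tp.Nf V M → T.c1 V L = T.c1 V C + T.c1 V M → 0 < k →
  Kp V ((C.pow i).mul (M.pow j)) r → ∃ a, Mp Z (((pull π L).pow k).pow a) r

/-- ROW GF0: the pair on a log resolution -/
def GF0 : Prop := ∀ (n : ℕ) (V : Mf n) (Q : Rd V) (D : Bd V.X) (t : D.ι → V.X → ℂ) (q : ℕ)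
  (C M : Bd V.X), Q.Ok → SubPair n Q.E Q.s D t q C → Psef n C → IsLB n M → P285N.Tp.Nf V M →
  Iso n Q.L (C.mul M) →
  ∃ (κ ι : Type) (_ : Fintype κ) (A : Pr n κ ι) (m : κ → ℤ) (N : ℕ) (π : A.Z.X → V.X)
    (S : Set V.X) (k : ℕ) (M' : Bd A.Z.X), Modif n π S ∧ 0 < k ∧
    Gf A m N ((pull π Q.L).pow k) M'

/-- **KG** -/
def KG : Prop := ∀ (n d r i j : ℕ) (V : Mf n) (Q : Rd V) (D : Bd V.X) (t : D.ι → V.X → ℂ) (q : ℕ)
  (C M : Bd V.X), Q.Ok → SubPair n Q.E Q.s D t q C → Psef n C → IsLB n M → P285N.Tp.Nf V M →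
  Iso n Q.L (C.mul M) → Eff n C ∨ n ≤ 5 → Kp V ((C.pow i).mul (M.pow j)) r → n ≤ d + r + 4 →
  ¬ Neg n (P285W.Bs.Gd Co.ct V (Co.ct.c1 V Q.L) d) → NumSemiample n Q.L

end Vale.Agent.P270V
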