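import Vale.Agent.P270V.Gf071
import Vale.Agent.P270U.Mp0
import Vale.Agent.P285W.Bs.Desc

/-!
# P270V, row MP0: the map on a model of the total space
-/

open Set Filter Function
open Vale.Agent.P272.K Vale.Agent.P285.H281.FD Vale.Agent.P281Z Vale.Agent.P280Z
open Vale.Agent.P277.HD (pull)
open Vale.Agent.P285W.J
open Vale.Agent.P270U (MPA Mp)

namespace Vale.Agent.P270V

theorem mp071 (h1 : MPA) (h2 : MPM) : MP0 := by
  intro T hT _ n r k i j V Z π S L C M hV hZ hπ hL hC hM pC nM e hk ⟨J, s, _, s1, s2⟩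
  obtain ⟨k, rfl⟩ : ∃ k', k = k' + 1 := ⟨k - 1, by omega⟩
  have := hV.conn
  have cZ := hπ.conn
  have hh := hπ.hol
  have h0 := lb_mul (lb_pow hC i) (lb_pow hM j)
  have hB := lb_pow h0 J
  have pB := hh.lb hB
  obtain ⟨X₁, u, S₁, Q, γ, a1, a2, a3, a4, a5⟩ := h1 n r Z (pull π (((C.pow i).mul (M.pow j)).pow J))
    _ ⟨cZ, hZ⟩ pB (fun b => hh.sec (s1 b)) (P270U.Mp0H.rk_pull hπ hB s1 s2)
  have c1 := a1.conn
  obtain ⟨A, lA, pA⟩ := id hV.prj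
  refine ⟨J * (i + j), h2 T hT n r (J * (i + j) * k + J * j) (J * (i + j) * k + J * i) Z _ _
    (pull π C) (T.pull hh (T.c1 V M)) ⟨cZ, hZ⟩ pB (lb_pow (lb_pow (hh.lb hL) _) _) (hh.lb hC)
    (one_smul ℕ (cls n (pull π C)) ▸ pse_up71 hπ hV.prj hC pC 1)
    (nf_pull hT hh (P285W.Bs.DescX.nef hT hM lA (nM A lA pA))) ?_
    ⟨X₁, u, S₁, a1, a2, Q.P, Q.H, γ, Q.conn, Q.lb, Q.pos, a3, a4, P285S.Ef.pse a5⟩⟩
  rw [hT.c1.pow _ _ _ (lb_pow (hh.lb hL) _), hT.c1.pow _ _ _ (hh.lb hL), hT.c1.pull hh _ hL,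
    hT.c1.pull hh _ hB, hT.c1.pull hh _ hC, hT.c1.pow _ _ _ h0,
    hT.c1.mul _ _ _ (lb_pow hC i) (lb_pow hM j), hT.c1.pow _ _ _ hC, hT.c1.pow _ _ _ hM, e]
  simp only [map_add, map_smul]
  push_cast
  module

end Vale.Agent.P270V
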