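import Vale.Agent.P270V.Fin
import Vale.Agent.P270V.Gf071
import Vale.Agent.P270V.Mp071
import Vale.Agent.P270V.Mpm
import Vale.Agent.P270V.Mpu36
import Vale.Agent.P270U.Bpx
import Vale.Agent.P270U.Mpa
import Vale.Agent.P270U.Mpbb
import Vale.Agent.P270U.Fibd
import Vale.Agent.P270U.Smd
import Vale.Agent.P270U.Mod
import Vale.Agent.P270U.Tru
import Vale.Agent.P270U.Rel18
import Vale.Agent.P270U.Bgn
import Vale.Agent.P270U.Fke
import Vale.Agent.P270U.Ned
import Vale.Agent.P285U.Bpf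
import Vale.Agent.P285U.Ksg
import Vale.Agent.P285U.Resp8
import Vale.Agent.P285U.Fgab
import Vale.Agent.P285U.Fgg36
import Vale.Agent.P285U.Wil
import Vale.Agent.P285L.Bir
import Vale.Agent.P285L.Nefr
import Vale.Agent.P285L.Immr
import Vale.Agent.P285L.Upbr
import Vale.Agent.P285L.Dsf87

/-!
# P270V: all the rows
-/

open Vale.Agent.P281Z

namespace Vale.Agent.P270V

open P270U in
theorem bgs : P270V.BGS :=
  bgs2_of mod_ tru (R18.rel2_of Pk.start (fibd_of P270F.Mg.zc smd P270H.gag P270H.nvs4)) bgn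
    (bpx_fg (P285U.bpfg_of (P285U.ksg_of P285U.resp8 P270H.fpu) P285U.fgab P285U.fgg36 P285U.wil))

open P270H in
/-- **KG** -/
theorem kg : KG :=
  kg_of cbg P270G.nsd (st071 ds2) crp fk03 (fk1_of rf) P285T.Cb.one0 P285T.Cb.cbf
    (wpr53 (nzt61 rf) (hor61 rf) P285T.Cb.cle59 P285T.Cb.zar1b P285T.Cb.zar97) (fpd_of lam) psb
    amb gdw (gup3_of fpu) end3 P270U.fke P270U.ned P270U.tru gf071 (mp071 P270U.mpa mpm)
    (mpu36 P270U.mpa P270U.mpbb) bgs

theorem bir : P285L.BIR := P285L.bir_of P285L.nefr P285L.immr P285L.upbr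

theorem dsf : P285L.DSF := P285L.dsf87

end Vale.Agent.P270V
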