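import Vale.Agent.P270V.Defs
import Vale.Agent.P270G.Efq
import Vale.Agent.P285S.Tp.Four

/-!
# P270V, row GF0: the pair on a log resolution
-/

open Set Filter
open Vale.Agent.P272.K Vale.Agent.P285.H281.FD Vale.Agent.P281Z
open Vale.Agent.P277.HD (pull)
open Vale.Agent.P285N Vale.Agent.P285N.Tp
open Vale.Agent.P285S.Tp (ef_pull nf_comp)
open Vale.Agent.P270G

noncomputable section

namespace Vale.Agent.P270V

theorem gf062 : GF0 := by
  intro n V Q D t q C M hQ K hC lM nM ⟨τ, i1, i2⟩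
  have r := hQ.bir.res
  obtain ⟨p, R, -, hR, lt, -⟩ := lrk2 n V Q D t q C Q.E 1 (fun _ => Q.s) hQ K r.lbE
    (fun _ => r.secE) ⟨0, r.nzE⟩
  obtain ⟨H, c, h1, h2, hF⟩ := rgq n V Q C _ R hQ hR
  obtain ⟨B, hM⟩ := hR.md
  obtain ⟨A, lA, pA⟩ := id hQ.prj
  have hπ := hM.hol
  have ok := hR.ok
  have := ok.conn
  have lL := hπ.lb r.lbL
  have cP : cls n R.A.P = R.k • cls n (pull R.π C) := cls_pow (hπ.lb K.lb) _
  have cL : cls n Q.L = cls n C + cls n M := by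
    rw [← cls_mul K.lb lM, cls_eq r.lbL (lb_mul K.lb lM)]
    exact ⟨τ, fun a b x ha hb e he => (i1 a b e x he ha hb).1.analyticAt,
      fun a b x ha hb => (i1 a b _ x (P277Z.at_chart x) ha hb).2, i2⟩
  refine ⟨_, _, inferInstance, R.A, R.m, R.N, R.π, B, R.k, (pull R.π M).pow R.k, hM, hR.kp,
    ⟨ok, lt, lb_pow lL _, P285S.Tp.F4.nf_pw lL (nf_comp hπ hQ.prj r.lbL (D30H.nf hQ)) _,
      lb_pow (hπ.lb lM) _, P285S.Tp.F4.nf_pw (hπ.lb lM) (nf_comp hπ hQ.prj lM nM) _, ?_⟩,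
      ⟨hπ.pic (cls n A), fun k => ?_⟩, H, c, h1, h2, fun k i j M' s m1 m2 =>
        hF k (i * R.k) j M' s m1 (by rw [m2, cls_pow lL, mul_smul])⟩
  · rw [cP, cls_pow lL, cls_pow (hπ.lb lM), cls_pull hπ r.lbL, cls_pull hπ K.lb, cls_pull hπ lM, cL,
      map_add, smul_add]
  · obtain ⟨j, hj, s, s1, s2⟩ := hC A lA pA (k * R.k)
    have l1 := lb_mul (lb_pow K.lb (k * R.k)) lA
    refine ⟨j, hj, (congrArg (P285S.Ef R.Y) ?_).mp
      (ef_pull hM (EfqH.ef_of (lb_pow l1 j) s1 s2))⟩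
    rw [cP, cls_pow l1, cls_mul (lb_pow K.lb _) lA, cls_pow K.lb, map_nsmul, map_add, map_nsmul,
      cls_pull hπ K.lb, mul_smul]

end Vale.Agent.P270V
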