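import Vale.Agent.P270V.Defs
import Vale.Agent.P270U.Defs2
import Vale.Agent.P285T.Cb.Fibk
import Vale.Agent.P285T.Ir.Fibr
import Vale.Agent.P281Z.Ri.All0
import Vale.Agent.P281Z.St.All
import Vale.Agent.P281Z.Nt.Neat

/-!
# P270V: row REL
-/

open Set Filter Topology
open Vale.Agent.P272.K Vale.Agent.P285.H281.FD Vale.Agent.P281Z Vale.Agent.P285N
open Vale.Agent.P277Z.Slc (IsDiv Snc lin isLB_can)
open Vale.Agent.P277.HD (pull)
open Vale.Agent.P285S Vale.Agent.P285S.Mm.Ps.Nvso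
open Vale.Agent.P285T.Cb (can_imm cls_cst)
open Vale.Agent.P270U (FIBD)

namespace Vale.Agent.P270V

theorem rel_of (fb : FIBD) : REL := by
  intro n T hT κ ι _ A m N fl L M a r hA ⟨Y, H', g, cY, lH', pH', hg, sg, η', ps'⟩ hd ⟨R, r1, r2⟩
    O σ dv H lH
  obtain ⟨η, ps⟩ := hA.ps
  choose j₀ hj₀ D₀ t₀ d1 d2 d3 x0 d4 using ps
  have := hA.ok.conn
  have hS := hA.ok.snc
  have sE : Snc n (fun l : Empty => (l.elim : Set A.Z.X)) := Ri.snc_empty
  have hE := Hyp.of_snc sE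
  choose B b1 b2 using fun j : ℕ => Pic.ind (P := fun c => ∃ T, IsLB n T ∧ cls n T = c)
    (fun L hL => ⟨L, hL, cls_mk hL⟩)
    (j • (cls n L + ∑ l, (-m l).toNat • cls n (O l)) - cls n H)
  choose S s1 s2 using fun j => St.start_of genS n r A.Z Y g H' (B j) Empty _ (fun _ => 0) cY hg
    lH' pH' (b1 j) sE
  choose U u1 u2 using fun k => Ri.fub_of Rs.res genS n r A.Z Y g (R k) hg (r1 k)
  obtain ⟨Q, q1, q2⟩ := genS n r A.Z Y g _ A.G hg hS
  obtain ⟨x, hy⟩ := ((((q1.neg.union (.iUnion s1)).union (.iUnion fun k => (u1 k).neg)).pre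
    fun S k => k.pre_surj hg sg).union
    (Neg.iUnion fun k => (P285T.Ir.FibrH.thin (d1 k) (d3 k) (d4 k)).neg)).dense.nonempty
  have hr := q2 _ fun c => hy (.inl (.inl (.inl c)))
  obtain ⟨d, he⟩ := Nat.exists_eq_add_of_le (hr.sbm hg hS rfl).le
  obtain ⟨F, i, hi, hs⟩ := hr.fib he hg hS
  obtain ⟨u, rfl⟩ := hi.ex (rfl : x ∈ g ⁻¹' {g x})
  obtain ⟨C, j, cC, hj⟩ := comp_emb F u
  obtain ⟨u, rfl⟩ := hj.ex mem_connectedComponent
  have sj : ∀ z, Sbm d d j z := fun z => imm_iff_sbm.1 (hj.imm z)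
  have hk : HolM d n fun z => i (j z) := hi.hol.comp hj.hol
  have sC := snc_pull hj.hol sj hs
  have pC : C.Prj := hA.ok.prj.elim fun H h => ⟨_, hk.lb h.1, Lf.pos_pull hk
    (fun z => Imm.comp (hi.hol.at _) (hj.hol.at z) (hi.imm _) (hj.imm z)) h.2⟩
  have lO := fun l => (dv l).lb
  have hO : ∀ l, IsDiv d (j ⁻¹' (i ⁻¹' A.G l)) (pull (fun z => i (j z)) (O l))
      fun a z => σ l a (i (j z)) := fun l => ⟨hk.lb (lO l), hk.sec (dv l).sec,
    fun a z ha => (sj z).leq (hj.hol.at z) (hr.leq1 hg hS hi ((dv l).leq a _ ha))⟩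
  have lP := hk.lb hA.ok.lb
  have l0 := lb_lin (fun l => (hO l).lb) fun l => ((-m l).toNat : ℤ)
  have l1 := lb_mul lP l0
  have c1 := (cls_mul lP l0).trans (congrArg _ (cls_mon hO fun l => (-m l).toNat))
  have cK : cls d (Bd.can d C.X) = hk.pic (cls n (Bd.can n A.Z.X)) := by
    rw [can_imm hj.hol hj.imm, Ri.On.cls_can hr hg hS hi, ← cls_pull hi.hol isLB_can,
      ← cls_pull hj.hol (hi.hol.lb isLB_can), ← cls_pull hk isLB_can]
    rfl
  have c2 := c1.trans (show _ = N • cls d (Bd.can d C.X) +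
      ∑ l, max (m l) 0 • cls d (pull (fun z => i (j z)) (O l)) by
    rw [cls_pull hk hA.ok.lb, Xc.cls_eq n κ ι m N A O σ hA.ok dv, map_add, map_nsmul, map_sum,
      ← cK, add_assoc, ← Finset.sum_add_distrib]
    refine congrArg _ (Finset.sum_congr rfl fun l _ => ?_)
    rw [map_zsmul, ← cls_pull hk (lO l), ← natCast_zsmul, ← add_smul]
    exact congrArg (· • _) (by omega))
  have lt : ∀ l, max (m l) 0 < N := fun l => max_lt (hA.klt l) (by exact_mod_cast hA.ok.pos)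
  obtain ⟨Ω, ok⟩ := Mm.mkpr d _ C _ _ _ _ (fun l => max (m l) 0) N cC pC sC hO l1 hA.ok.pos
    hA.ok.even (fun l => (lt l).le) c2
  have c3 := (congrArg (· + cls d (pull (fun z => i (j z)) M)) c1).trans
    (show _ = cls d (pull (fun z => i (j z)) L) +
      ∑ l, (-m l).toNat • cls d (pull (fun z => i (j z)) (O l)) by
    rw [cls_pull hk hA.lb, hA.cl, map_add, ← cls_pull hk hA.ok.lb, ← cls_pull hk hA.lbM,
      add_right_comm])
  have hN : Neg d (P285W.J.Tr T C (T.c1 C (pull (fun z => i (j z)) L))) := by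
    refine Neg.mono (Neg.pre (f := j) (S := i ⁻¹' ⋃ k, R k) ⟨fun k => i ⁻¹' R k, fun k =>
      ⟨(r1 k).1.pre hi.hol, fun w => ?_⟩, preimage_iUnion.subset⟩ fun S k => k.pre hj.hol
        (dense_univ.mono fun z _ => sj z)) ?_
    · rw [mem_closure_iff_frequently, hi.cemb.isInducing.nhds_eq_comap, frequently_comap]
      refine (u2 k (i w) fun c => hy (.inl (.inr (mem_iUnion.2 ⟨k, hi.fib w ▸ c⟩)))).mono
        fun z hz => ?_
      obtain ⟨v, rfl⟩ := hi.ex (y := z) (hz.1.trans (hi.fib w))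
      exact ⟨v, rfl, hz.2⟩
    · rintro _ ⟨E, f, hf, cE, ⟨c, rfl⟩, ⟨c₁, c₂, ne⟩, z⟩
      refine r2 ⟨E, _, hk.comp hf, cE, ⟨c, rfl⟩, ⟨c₁, c₂, fun e => ne (hj.inj (hi.inj e))⟩, ?_⟩
      rw [hT.rg.pull_comp hf hk (hk.comp hf) fun _ => rfl, ← hT.c1.pull hk _ hA.lb]
      exact z
  obtain ⟨b, -, D, t, lD, cD, t1, v, t2⟩ := (fb d (by omega) T hT _ _ ⟨C, _, _, _, Ω⟩ _ N fl _ _ _ _
    (fun l => (-m l).toNat) ok (fun l => ⟨le_max_right _ _, lt l⟩) hO (hk.lb hA.lb) (hk.lb hA.lbM)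
    (Tp.nf_comp hk hA.ok.prj hA.lb hA.nef) (Tp.nf_comp hk hA.ok.prj hA.lbM hA.nfM) c3
    ⟨hk.pic η, fun k => ⟨j₀ k, hj₀ k, by
      have e := Tp.ef_add (⟨_, _, hk.lb (d1 k), rfl, hk.sec (d3 k), u, not_not.1 fun c =>
        hy (.inr (mem_iUnion.2 ⟨k, c⟩))⟩ : Ef C _)
        (Tp.ef_smul (Tp.ef_smul (ef_mon hO fun l => (-m l).toNat) k) (j₀ k))
      rw [cls_pull hk (d1 k), d2 k, map_nsmul, map_add, map_nsmul, ← cls_pull hk hA.ok.lb,
        ← smul_add, add_right_comm, ← smul_add, ← c1] at e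
      exact e⟩⟩).resolve_right (not_not.2 hN) _ (hk.lb lH)
  have lB := hi.hol.lb (b1 b)
  obtain ⟨t', t3, w, t4, t5⟩ := (sy_zero lB).1 (Ri.ext0 d n 0 C F A.Z i j _ _ _ _ (fun _ => 0) hj
    (Sy.of_cls hE hk.cont (hj.hol.lb lB) lD ((sy_zero lD).2 ⟨t, secP_of_sec (c := fun _ => 0)
      hk.cont t1 fun _ => le_rfl, v, fun l => l.elim, t2⟩) (by
        refine (cls_pull hk (b1 b)).trans (.trans ?_ ((congrArg (b • · - _) c3).symm.trans cD.symm))
        rw [b2, map_sub, map_nsmul, map_add, map_sum, ← cls_pull hk hA.lb, ← cls_pull hk lH]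
        simp only [map_nsmul, ← cls_pull hk (lO _)]) fun _ => le_rfl))
  obtain ⟨a₀, k1⟩ := s2 b _ (fun c => hy (.inl (.inl (.inr (mem_iUnion.2 ⟨b, c⟩))))) d F i hi t' t3
  obtain ⟨β, hβ⟩ := lH'.cover (g (i (j u)))
  obtain ⟨α, hα⟩ := lB.cover w
  obtain ⟨s, k2, k3⟩ := k1 a₀ le_rfl β hβ
  have l3 := hg.lb (lb_pow lH' a₀)
  have l4 := lb_mul (b1 b) l3
  have k4 := isSec_of (fun a x ha => k2.hol a x trivial ha fun l => l.elim)
    fun a a' x ha ha' => k2.chg a a' x trivial ha ha' fun l => l.elim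
  have k5 : Ef A.Z _ := ⟨_, s, l4, cls_mul (b1 b) l3, k4, i w, (nz_iff l4
    (fun a a' => k4.change a a' _) (a := (α, β)) ⟨hα, show g (i w) ∈ H'.U β from hi.fib w ▸ hβ⟩).2
      ((k3 w α t4 hα).trans_ne (t5 α hα))⟩
  refine ⟨b + a₀ * a, b, η', fun k => ?_⟩
  obtain ⟨c, c0, k6⟩ := ps' (k * a₀)
  refine ⟨c, c0, ?_⟩
  convert Tp.ef_add k6 (Tp.ef_smul (Tp.ef_smul k5 k) c) using 1
  rw [b2, cls_pull hg (lb_pow lH' a₀), cls_pow lH', map_nsmul, ← cls_pull hg lH']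
  simp only [mul_smul, ← Finset.smul_sum]
  module

theorem rel2_of (fb : FIBD) : P270U.REL2 := rel_of fb

end Vale.Agent.P270V
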