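import Vale.Agent.P270V.Top
import Vale.Agent.P270V.Rel
import Vale.Agent.P270V.Mpm
import Vale.Agent.P270V.Mp071
import Vale.Agent.P270V.Gf062
import Vale.Agent.P270U.Bpx
import Vale.Agent.P270U.Fibd
import Vale.Agent.P270U.Smd
import Vale.Agent.P270U.Mod
import Vale.Agent.P270U.Tru
import Vale.Agent.P270U.Bgn
import Vale.Agent.P270U.Fke
import Vale.Agent.P270U.Ned
import Vale.Agent.P270U.Mpa
import Vale.Agent.P285U.Bpf
import Vale.Agent.P285U.Ksg38
import Vale.Agent.P285U.Resp34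
import Vale.Agent.P285U.Fgab
import Vale.Agent.P285U.Fgg36
import Vale.Agent.P285U.Wil
import Vale.Agent.P270H.All20
import Vale.Agent.P270G.Flb

/-!
# P270V: all the rows
-/

open Vale.Agent.P270H Vale.Agent.P270U

namespace Vale.Agent.P270V.A37

theorem bpfg : P285U.BPFG :=
  P285U.bpfg_of (P285U.ksg38 P285U.resp34 fpu) P285U.fgab P285U.fgg36 P285U.wil

theorem bgs : BGS :=
  bgsv_of mod_ tru (rel_of (fibd_of P270F.Mg.zc smd gag nvs4)) bgn (bpx_fg bpfg)

theorem kg_mpu (mpu : MPU) : KG :=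
  kg_of cbg P270G.nsd (st071 ds2) crp fk03 (fk1_of rf) P285T.Cb.one0 P285T.Cb.cbf
    (wpr53 (nzt61 rf) (hor61 rf) P285T.Cb.cle59 P285T.Cb.zar1b P285T.Cb.zar97) (fpd_of lam) psb
    amb gdw (gup3_of fpu) end3 fke ned tru gf062 (mp071 mpa mpm) mpu bgs

end Vale.Agent.P270V.A37
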