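import Vale.Agent.P270V.Defs
import Vale.Agent.P270H.Top
import Vale.Agent.P285S.Tp.Four

/-!
# P270V, rows MP0 and GF0
-/

open Set Filter
open Vale.Agent.P272.K Vale.Agent.P285.H281.FD Vale.Agent.P281Z Vale.Agent.P280Z
open Vale.Agent.P277.HD (pull)
open Vale.Agent.P285N Vale.Agent.P285N.Tp
open Vale.Agent.P285S.Tp (nf_comp)
open Vale.Agent.P270G

namespace Vale.Agent.P270V

theorem mp041 (h0 : P270U.MP0) (h1 : MPM) : MP0 := by
  intro T hT hF n r k i j V Z π S L C M cV pZ hπ lL lC lM hC nM e hk hp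
  have := cV.conn
  have hh := hπ.hol
  have lB := lb_mul (lb_pow lC i) (lb_pow lM j)
  obtain ⟨b, hb⟩ := h0 T hT hF n r 1 V Z π S _ _ cV pZ hπ lB (hh.lb lB) one_pos
    (one_smul _ _).symm hp
  obtain ⟨k, rfl⟩ : ∃ k', k = k' + 1 := ⟨k - 1, by omega⟩
  have l1 := lb_pow (hh.lb lL) (k + 1)
  refine ⟨b * (i + j), h1 T hT n r (b * (k * (i + j) + j)) (b * (k * (i + j) + i)) Z _ _ _ _
    ⟨hπ.conn, pZ⟩ (lb_pow (hh.lb lB) b) (lb_pow l1 _) (hh.lb lC)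
    ((congrArg (P285S.Pse Z) (one_smul _ _)).mp (P270H.pse_up hπ cV.prj lC hC 1))
    (P285W.J.nf_pull hT hh (P285W.J.nf_of hT cV.prj lM nM)) ?_ hb⟩
  rw [hT.c1.pow _ _ _ l1, hT.c1.pow _ _ _ (hh.lb lL), hT.c1.pow _ _ _ (hh.lb lB),
    hT.c1.pull hh _ lL, hT.c1.pull hh _ lB, hT.c1.pull hh _ lC, e,
    hT.c1.mul V _ _ (lb_pow lC i) (lb_pow lM j), hT.c1.pow V _ _ lC, hT.c1.pow V _ _ lM, map_add,
    map_add, map_smul, map_smul]
  push_cast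
  module

theorem gf041 : GF0 := by
  intro n V Q D t q C M hQ K hC lM nM ⟨τ, i1, i2⟩
  have r := hQ.bir.res
  have := hQ.conn
  obtain ⟨p, R, -, hR, lt, -⟩ := lrk2 n V Q D t q C Q.E 1 (fun _ => Q.s) hQ K r.lbE
    (fun _ => r.secE) ⟨0, r.nzE⟩
  obtain ⟨H, c, h1, h2, hF⟩ := rgq n V Q C _ R hQ hR
  obtain ⟨B, hM⟩ := hR.md
  have hπ := hM.hol
  have ok := hR.ok
  have lL := hπ.lb r.lbL
  have cP : cls n R.A.P = R.k • cls n (pull R.π C) := cls_pow (hπ.lb K.lb) _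
  have cL : cls n Q.L = cls n C + cls n M := by
    rw [← cls_mul K.lb lM, cls_eq r.lbL (lb_mul K.lb lM)]
    exact ⟨τ, fun a b x ha hb e he => (i1 a b e x he ha hb).1.analyticAt,
      fun a b x ha hb => (i1 a b _ x (P277Z.at_chart x) ha hb).2, i2⟩
  refine ⟨_, _, inferInstance, R.A, R.m, R.N, R.π, B, R.k, (pull R.π M).pow R.k, hM, hR.kp,
    ⟨ok, lt, lb_pow lL _, P285S.Tp.F4.nf_pw lL (nf_comp hπ hQ.prj r.lbL (D30H.nf hQ)) _,
      lb_pow (hπ.lb lM) _, P285S.Tp.F4.nf_pw (hπ.lb lM) (nf_comp hπ hQ.prj lM nM) _, ?_⟩,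
      cP ▸ P270H.pse_up hM hQ.prj K.lb hC _, H, c, h1, h2, fun k i j M' s m1 m2 =>
        hF k (i * R.k) j M' s m1 (by rw [m2, cls_pow lL, mul_smul])⟩
  rw [cP, cls_pow lL, cls_pow (hπ.lb lM), cls_pull hπ r.lbL, cls_pull hπ K.lb, cls_pull hπ lM, cL,
    map_add, smul_add]

end Vale.Agent.P270V
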