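import Vale.Agent.P270V.Defs
import Vale.Agent.P270U.Mpu
import Vale.Agent.P285W.J.Top

/-!
# P270V, row MPU
-/

open Set Filter
open Vale.Agent.P272.K Vale.Agent.P285.H281.FD Vale.Agent.P281Z Vale.Agent.P280Z
open Vale.Agent.P277.HD (pull)
open Vale.Agent.P277Z.Slc (lin)
open Vale.Agent.P285N.St (Psef)
open Vale.Agent.P285W.Bs (Cp)
open Vale.Agent.P285W.J (nf_pull nf_add nf_smul nf_of)
open Vale.Agent.P285S (Pse)
open Vale.Agent.P270H (PSB)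
open Vale.Agent.P270U (MPA MPB)
open Vale.Agent.P270U.MpuH

noncomputable section

namespace Vale.Agent.P270V

theorem MpuH.pull_pse {n : ℕ} {Y V : Mf n} {π : Y.X → V.X} {B : Set V.X} (hM : Modif n π B)
    {β : Pic n V.X} (h : Pse V β) : Pse Y (hM.hol.pic β) := by
  obtain ⟨η, h⟩ := h
  refine ⟨hM.hol.pic η, fun k => ?_⟩
  obtain ⟨j, j0, D, t, h1, h2, h3, x, h4⟩ := h k
  obtain ⟨y, rfl⟩ := hM.surj x
  refine ⟨j, j0, _, _, hM.hol.lb h1, ?_, hM.hol.sec h3, y, h4⟩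
  rw [cls_pull hM.hol h1, h2, map_nsmul, map_add, map_nsmul]

theorem MpuH.pse {n : ℕ} {V : Mf n} (pV : V.Prj) {C : Bd V.X} (lC : IsLB n C) (h : Psef n C)
    (k : ℕ) : Pse V (k • cls n C) := by
  obtain ⟨A, lA, pA⟩ := pV
  refine ⟨cls n A, fun i => ?_⟩
  obtain ⟨j, hj, s, s1, b, x, hb, s2⟩ := h A lA pA (i * k)
  have l1 := lb_mul (lb_pow lC (i * k)) lA
  have l2 := lb_pow l1 j
  refine ⟨j, hj, _, s, l2, ?_, s1, x, (nz_iff l2 (fun a b => s1.change a b x) hb).2 s2⟩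
  rw [cls_pow l1, cls_mul (lb_pow lC _) lA, cls_pow lC, mul_smul]

theorem mpu_of' (hC : P285T.Cb.BCP) (hA : MPA) (hB : MPB) (hM : MPM) (hP : PSB) : MPU := by
  intro T hT hF w e V Q M U C E hU r z i j W τ S hτ P B pC lB eB ⟨J, s, _, hs, rk⟩ hW lP hz hc
  obtain ⟨X₁, f₁, κ₁, _, G₁, δ₁, u, k1, k2, -, -, k3⟩ := hC _ w M W τ S hU.fb hτ hU.ok.prj hW
  obtain ⟨B₁, hu⟩ := k2.mu
  obtain ⟨B₀, hπ⟩ := hU.md
  obtain ⟨z, rfl⟩ : ∃ y, z = y + 1 := ⟨z - 1, by omega⟩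
  have lJ := lb_pow lB J
  have l1 := hπ.hol.lb lJ
  have lL := hU.q.bir.res.lbL
  have hf : Fibn _ w f₁ := k1.fibn
  have := hU.fb.connY
  have cW : Cp W := ⟨hτ.conn, hW⟩
  have l2 : ∀ a, IsLB w (![E, U.D] a) := Fin.forall_fin_two.2 ⟨hU.lbE, hU.lbD⟩
  have l3 := lb_lin l2 ![(i : ℤ) - j, j]
  have e3 : T.c1 M.Y (lin ![E, U.D] ![(i : ℤ) - j, j]) =
      (i : ℝ) • T.c1 M.Y E + (j : ℝ) • (T.c1 M.Y U.D - T.c1 M.Y E) := by
    rw [hT.c1.lin _ _ _ l2, Fin.sum_univ_two]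
    simp only [Matrix.cons_val_zero, Matrix.cons_val_one]
    push_cast
    module
  have l4 := hτ.hol.lb (lb_pow l3 J)
  have mp := core hA hB hT hF hf ⟨k1.conn, k3⟩ cW (hu.hol.lb l1) l4 (Nat.mul_pos hU.cp hU.kp) (by
      rw [hT.c1.pull hτ.hol _ (lb_pow l3 J),
        ← hT.rg.pull_comp hf.hol hτ.hol (hτ.hol.comp hf.hol) fun _ => rfl,
        hT.rg.pull_comp hu.hol hU.fb.fibn.hol (hτ.hol.comp hf.hol) fun x => (k2.comm x).symm,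
        hT.c1.pow _ _ _ l3, e3, hT.c1.pull hu.hol _ l1, hT.c1.pull hπ.hol _ lJ,
        hT.c1.pow _ _ _ lB, eB, ← map_smul]
      refine congrArg _ ?_
      simp only [map_smul, map_add, map_sub]
      rw [hU.cE, hU.cD, c1s hT hU.ok.lb (hπ.hol.lb hU.lbC) hU.cl,
        hT.c1.pow _ _ _ (hπ.hol.lb lL), hT.c1.pull hπ.hol _ hU.lbC, hT.c1.pull hπ.hol _ lL]
      push_cast
      module)
    (fun b => hu.hol.sec (hπ.hol.sec (hs b)))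
    (rk_up hu l1 (fun b => hπ.hol.sec (hs b)) (rk_up hπ lJ hs rk))
  have pE := hP T hT _ w M.X M.Y _ hU.fb.fibn.hol U.P E U.c ⟨hU.ok.conn, hU.ok.prj⟩
    ⟨this, hU.prj⟩ hU.fb.fibn.surj hU.ok.lb hU.lbE hU.cE (by
      rw [hU.cl, cls_pull hπ.hol hU.lbC, ← map_nsmul]
      exact MpuH.pull_pse hπ (MpuH.pse hU.q.prj hU.lbC pC _))
  refine ⟨(i + j) * J, hM T hT w r (J * j) J W _ _ (pull τ E) _ cW l4 (lb_pow lP _)
    (hτ.hol.lb hU.lbE) (cls_pull hτ.hol hU.lbE ▸ MpuH.pull_pse hτ pE)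
    (nf_pull hT hτ.hol (nf_add hT (nf_smul hT (Nat.cast_nonneg i) hU.nfE)
      (nf_smul hT (Nat.cast_nonneg ((i + j) * z)) (nf_of hT hU.prj hU.lbD hU.nfD)))) ?_ mp⟩
  rw [hT.c1.pow _ _ _ lP, hc, hT.c1.pull hτ.hol _ (lb_pow l3 J), hT.c1.pow _ _ _ l3, e3,
    hT.c1.pull hτ.hol _ hU.lbE]
  simp only [map_smul, map_add, map_sub]
  push_cast
  module

theorem mpu_of : MPA → MPB → MPM → PSB → MPU := mpu_of' P285T.Cb.bcp_row

end Vale.Agent.P270V
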