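import Vale.Agent.P270V.Defs
import Vale.Agent.P270U.Mpu
import Vale.Agent.P285S.Tp.Thr
import Vale.Agent.P285W.J.Nb

/-!
# P270V, row MPU
-/

open scoped Topology
open Set Filter
open Vale.Agent.P272.K Vale.Agent.P285.H281.FD Vale.Agent.P281Z Vale.Agent.P280Z
open Vale.Agent.P277.HD (pull)
open Vale.Agent.P285N.St (Psef)
open Vale.Agent.P285S (Pse)
open Vale.Agent.P270U.MpuH

noncomputable section

namespace Vale.Agent.P270V

namespace M59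

theorem up {n : ℕ} {V Y : Mf n} {π : Y.X → V.X} {S : Set V.X} (hπ : Modif n π S)
    {β : Pic n V.X} (h : Pse V β) : Pse Y (hπ.hol.pic β) :=
  let ⟨γ, h⟩ := h
  ⟨hπ.hol.pic γ, fun k => (h k).imp fun _ a => ⟨a.1, by
    simpa only [map_nsmul, map_add] using P285S.Tp.ef_pull hπ a.2⟩⟩

theorem ps {n : ℕ} {V : Mf n} (pV : V.Prj) {C : Bd V.X} (lC : IsLB n C) (h : Psef n C) (k : ℕ) :
    Pse V (k • cls n C) := by
  obtain ⟨A, lA, pA⟩ := pV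
  refine ⟨cls n A, fun i => ?_⟩
  obtain ⟨j, hj, s, s1, a, x, x1, x2⟩ := h A lA pA (i * k)
  have l1 := lb_mul (lb_pow lC (i * k)) lA
  exact ⟨j, hj, _, s, lb_pow l1 j, by rw [cls_pow l1, cls_mul (lb_pow lC _) lA, cls_pow lC,
    mul_smul], s1, x, (nz_iff (lb_pow l1 j) (fun a b => s1.change a b x) x1).2 x2⟩

end M59

theorem mpu59_of (hC : P285T.Cb.BCP) (hA : P270U.MPA) (hB : P270U.MPB) (hM : MPM)
    (hP : P270H.PSB) : MPU := by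
  intro T hT hF w e V Q M U C E hU r z i j W τ S hτ P B hC' lB cB ⟨q, s, _, hs, rk⟩ hW lP hz hc
  obtain ⟨X₁, f₁, κ₁, _, G₁, δ₁, u, k1, k2, -, -, k3⟩ := hC _ w M W τ S hU.fb hτ hU.ok.prj hW
  obtain ⟨B₁, hu⟩ := k2.mu
  obtain ⟨B₀, hπ⟩ := hU.md
  have lL : IsLB _ Q.L := hU.q.bir.res.lbL
  have lC := lb_pow lB q
  have l1 := hπ.hol.lb lC
  have hf : Fibn _ w f₁ := k1.fibn
  have := hU.fb.connY
  have a1 := lb_pow hU.lbE i
  have a2 := lb_pow hU.lbD j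
  have a3 := lb_pow hU.lbE j
  have a4 := lb_zp a3 (-1)
  have a5 := lb_mul a1 (lb_mul a2 a4)
  have a6 := hτ.hol.lb a5
  have c4 : T.c1 M.Y (zp (E.pow j) (-1)) = -((j : ℝ) • T.c1 M.Y E) := by
    have := c1s hT (lb_mul a4 a3) a3 (k := 0) (by
      rw [cls_mul a4 a3, cls_zp a3, zero_smul, neg_smul, one_smul, neg_add_cancel])
    rw [hT.c1.mul _ _ _ a4 a3, hT.c1.pow _ _ _ hU.lbE, Nat.cast_zero, zero_smul] at this
    exact eq_neg_of_add_eq_zero_left this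
  have c5 : T.c1 M.Y ((E.pow i).mul ((U.D.pow j).mul (zp (E.pow j) (-1)))) =
      (i : ℝ) • T.c1 M.Y E + (j : ℝ) • (T.c1 M.Y U.D - T.c1 M.Y E) := by
    rw [hT.c1.mul _ _ _ a1 (lb_mul a2 a4), hT.c1.mul _ _ _ a2 a4, c4, hT.c1.pow _ _ _ hU.lbE,
      hT.c1.pow _ _ _ hU.lbD, smul_sub, sub_eq_add_neg]
  have pE : Pse M.Y (cls w E) := hP T hT _ w M.X M.Y M.f hU.fb.fibn.hol U.P E U.c
    ⟨hU.ok.conn, hU.ok.prj⟩ ⟨this, hU.prj⟩ hU.fb.fibn.surj hU.ok.lb hU.lbE hU.cE (by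
      rw [hU.cl, cls_pull hπ.hol hU.lbC, ← map_nsmul]
      exact M59.up hπ (M59.ps hU.q.prj hU.lbC hC' _))
  refine ⟨(i + j) * q, hM T hT w r (z * q * j) (z * q * i) W _ _ _ _ ⟨hτ.conn, hW⟩
    (lb_pow a6 (q * z)) (lb_pow lP _) (hτ.hol.lb hU.lbE)
    (cls_pull hτ.hol hU.lbE ▸ M59.up hτ pE) (P285W.J.nf_pull hT hτ.hol hU.nfE) ?_
    (core hA hB hT hF hf ⟨k1.conn, k3⟩ ⟨hτ.conn, hW⟩ (hu.hol.lb l1) (lb_pow a6 _)
      (Nat.mul_pos (Nat.mul_pos hz hU.cp) hU.kp) ?_ (fun b => hu.hol.sec (hπ.hol.sec (hs b)))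
      (rk_up hu l1 (fun b => hπ.hol.sec (hs b)) (rk_up hπ lC hs rk)))⟩
  · rw [hT.c1.pow _ _ _ lP, hc, hT.c1.pow _ _ _ a6, hT.c1.pull hτ.hol _ a5, c5,
      hT.c1.pull hτ.hol _ hU.lbE]
    simp only [map_add, map_smul, map_sub]
    push_cast
    module
  · rw [hT.c1.pow _ _ _ a6, map_smul, hT.c1.pull hτ.hol _ a5,
      ← hT.rg.pull_comp hf.hol hτ.hol (hτ.hol.comp hf.hol) fun _ => rfl,
      hT.rg.pull_comp hu.hol hU.fb.fibn.hol (hτ.hol.comp hf.hol) fun x => (k2.comm x).symm, c5,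
      map_add, map_smul, map_smul, map_sub, hU.cE, hU.cD,
      c1s hT hU.ok.lb (hπ.hol.lb hU.lbC) hU.cl, hT.c1.pull hu.hol _ l1, hT.c1.pull hπ.hol _ lC,
      hT.c1.pow _ _ _ lB, hT.c1.pull hπ.hol _ hU.lbC, hT.c1.pow _ _ _ (hπ.hol.lb lL),
      hT.c1.pull hπ.hol _ lL, cB]
    simp only [map_add, map_smul, map_sub]
    push_cast
    module

end Vale.Agent.P270V
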