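import Vale.Agent.P270V.Defs
import Vale.Agent.P285S.Tp.Thr
import Vale.Agent.P280Z.Ld.Iso
import Vale.Agent.P285N.Tp.Num

/-!
# P270V, row MPU
-/

open scoped Topology
open Set Filter
open Vale.Agent.P272.K Vale.Agent.P285.H281.FD Vale.Agent.P281Z Vale.Agent.P280Z
open Vale.Agent.P277.HD (pull)
open Vale.Agent.P285S (Pse)
open Vale.Agent.P285N.Tp (FLC)
open Vale.Agent.P285N.St (Psef)
open Vale.Agent.P285W.Bs (Cp)
open Vale.Agent.P270U (MPA MPB Mp)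

namespace Vale.Agent.P270V

namespace M80

variable {n w r : ℕ} {T : CT}

theorem rk_up {V X : Mf n} {π : X.X → V.X} {S : Set V.X} (hπ : Modif n π S) {B : Bd V.X}
    (lB : IsLB n B) {s : Fin (r + 1) → B.ι → V.X → ℂ} (hs : ∀ b, IsSec n B (s b))
    (h : Rk n univ B s) : Rk n univ (pull π B) fun b i x => s b i (π x) := by
  obtain ⟨x, -, a, ha, h0, hI⟩ := h
  obtain ⟨y, y0, ⟨y1, y2⟩, y3⟩ := ((mem_closure_iff_frequently.1 (hπ.1.2 x)).and_eventually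
    (((lb_near lB ha).and ((sec_hol (hs 0) ha).ne_near h0)).and hI.near)).exists
  obtain ⟨z, rfl⟩ := hπ.ex y0
  exact ⟨z, trivial, a, y1, y2, (hπ.sbm y0).ind (hπ.hol.at z) y3⟩

theorem core (hA : MPA) (hB : MPB) (hT : T.OK) (hF : FLC T) {X : Mf n} {W : Mf w} {f : X.X → W.X}
    (hf : Fibn n w f) (cX : Cp X) (cW : Cp W) {B : Bd X.X} {E : Bd W.X} (lB : IsLB n B)
    (lE : IsLB w E) {c : ℕ} (c0 : 0 < c) (e : T.pull hf.hol (T.c1 W E) = (c : ℝ) • T.c1 X B)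
    {s : Fin (r + 1) → B.ι → X.X → ℂ} (hs : ∀ b, IsSec n B (s b)) (h : Rk n univ B s) :
    Mp W E r := by
  obtain ⟨X₁, u, S, P, γ, hu, pr, hγ, sγ, ef⟩ := hA n r X B s cX lB hs h
  have := cX.conn
  exact hB T hT hF n w r c X₁ W _ (hf.modif hu) (pull u B) E P γ ⟨hu.conn, pr⟩ cW (hu.hol.lb lB)
    lE c0 (by rw [hT.rg.pull_comp hu.hol hf.hol _ fun _ => rfl, e, map_smul,
      hT.c1.pull hu.hol _ lB]) hγ sγ ef

theorem c1s (hT : T.OK) {V : Mf n} {L M : Bd V.X} (hL : IsLB n L) (hM : IsLB n M) {k : ℕ}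
    (h : cls n L = k • cls n M) : T.c1 V L = (k : ℝ) • T.c1 V M :=
  let ⟨t, ht⟩ := (cls_eq hL (lb_pow hM k)).1 (h.trans (cls_pow hM k).symm)
  ((Ld.iso V _ _ t hL (lb_pow hM k) ht).1 T hT.c1).trans (hT.c1.pow V M k hM)

theorem pse_up {n : ℕ} {V Y : Mf n} {π : Y.X → V.X} {S : Set V.X} (hπ : Modif n π S)
    (pV : V.Prj) {C : Bd V.X} (lC : IsLB n C) (h : Psef n C) (k : ℕ) :
    Pse Y (k • cls n (pull π C)) := by
  obtain ⟨A, lA, pA⟩ := pV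
  refine ⟨hπ.hol.pic (cls n A), fun i => ?_⟩
  obtain ⟨j, hj, s, s1, s2⟩ := h A lA pA (i * k)
  have l1 := lb_mul (lb_pow lC (i * k)) lA
  refine ⟨j, hj, (congrArg (P285S.Ef Y) ?_).mp
    (P285S.Tp.ef_pull hπ (s2.elim fun a ⟨x, h1, h2⟩ => ⟨_, s, lb_pow l1 j, rfl, s1, x,
      (nz_iff (lb_pow l1 j) (fun a b => s1.change a b x) h1).2 h2⟩))⟩
  rw [cls_pow l1, cls_mul (lb_pow lC _) lA, cls_pow lC, map_nsmul, map_add, map_nsmul,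
    cls_pull hπ.hol lC, mul_smul]

end M80

open M80 in
theorem mpu80 (hK : P285T.Cb.BCP) (hA : MPA) (hB : MPB) (hM : MPM) (hS : P270H.PSB) :
    MPU := by
  intro T hT hF w e V Q M U C E hU r z i j W τ S hτ P B₀ hC lB eB ⟨J, s, _, hs, rk⟩ hW lP hz hc
  obtain ⟨X₁, f₁, κ₁, _, G₁, δ₁, u, k1, k2, -, -, k3⟩ :=
    hK _ w M W τ S hU.fb hτ hU.ok.prj hW
  obtain ⟨B₁, hu⟩ := k2.mu
  obtain ⟨B, hπ⟩ := hU.md
  have lC := lb_pow lB J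
  have l1 := hπ.hol.lb lC
  have hf : Fibn _ w f₁ := k1.fibn
  have := hU.fb.connY
  have cW : P285W.Bs.Cp W := ⟨hτ.conn, hW⟩
  have lZ := lb_zp hU.lbE (-1)
  have l2 := lb_mul hU.lbD lZ
  have l3 := lb_mul (lb_pow hU.lbE i) (lb_pow l2 j)
  have l4 := hτ.hol.lb (lb_pow l3 J)
  have e4 : T.c1 W (pull τ (((E.pow i).mul ((U.D.mul (zp E (-1))).pow j)).pow J)) =
      (J : ℝ) • T.pull hτ.hol ((i : ℝ) • T.c1 M.Y E + (j : ℝ) • (T.c1 M.Y U.D - T.c1 M.Y E)) := by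
    rw [hT.c1.pull hτ.hol _ (lb_pow l3 J), hT.c1.pow _ _ _ l3, map_smul,
      hT.c1.mul _ _ _ (lb_pow hU.lbE i) (lb_pow l2 j), hT.c1.pow _ _ _ hU.lbE, hT.c1.pow _ _ _ l2,
      hT.c1.mul _ _ _ hU.lbD lZ, P285N.Tp.NumH.c1_inv hT hU.lbE, ← sub_eq_add_neg]
  have lQ := hU.q.bir.res.lbL
  have h1 := core hA hB hT hF hf ⟨k1.conn, k3⟩ cW (hu.hol.lb l1) l4
    (Nat.mul_pos hU.cp hU.kp) (by
      rw [e4, map_smul, ← hT.rg.pull_comp hf.hol hτ.hol (hτ.hol.comp hf.hol) fun _ => rfl,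
        hT.rg.pull_comp hu.hol hU.fb.fibn.hol (hτ.hol.comp hf.hol) fun x => (k2.comm x).symm,
        map_add, map_smul, map_smul, map_sub, hU.cE, hU.cD,
        c1s hT hU.ok.lb (hπ.hol.lb hU.lbC) hU.cl, hT.c1.pow _ _ _ (hπ.hol.lb lQ),
        hT.c1.pull hu.hol _ l1, hT.c1.pull hπ.hol _ lC, hT.c1.pow _ _ _ lB, eB,
        hT.c1.pull hπ.hol _ hU.lbC, hT.c1.pull hπ.hol _ lQ]
      simp only [map_smul, map_add, map_sub]
      push_cast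
      module) (fun b => hu.hol.sec (hπ.hol.sec (hs b)))
    (rk_up hu l1 (fun b => hπ.hol.sec (hs b)) (rk_up hπ lC hs rk))
  obtain ⟨η, hη⟩ := hS T hT _ w M.X M.Y M.f hU.fb.fibn.hol U.P E U.c ⟨hU.ok.conn, hU.ok.prj⟩
    ⟨this, hU.prj⟩ hU.fb.fibn.surj hU.ok.lb hU.lbE hU.cE
    (hU.cl ▸ pse_up hπ hU.q.prj hU.lbC hC U.k)
  have p1 : Pse W (cls w (pull τ E)) := ⟨hτ.hol.pic η, fun k => (hη k).imp fun a ⟨a0, b⟩ => ⟨a0, by
    have := P285S.Tp.ef_pull hτ b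
    rwa [map_nsmul, map_add, map_nsmul, ← cls_pull hτ.hol hU.lbE] at this⟩⟩
  obtain ⟨z, rfl⟩ : ∃ z', z = z' + 1 := ⟨z - 1, by omega⟩
  refine ⟨J * (i + j), hM T hT w r (J * (z * (i + j) + j)) (J * (z * (i + j) + i)) W _ _ _ _ cW l4
    (lb_pow lP _) (hτ.hol.lb hU.lbE) p1 (P285W.J.nf_pull hT hτ.hol hU.nfE) ?_ h1⟩
  rw [e4, hT.c1.pow _ _ _ lP, hc, hT.c1.pull hτ.hol _ hU.lbE]
  simp only [map_smul, map_add, map_sub]
  push_cast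
  module

end Vale.Agent.P270V
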