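import Vale.Agent.P270V.Top

/-!
# P270V: the numerical version
-/

open Set
open Vale.Agent.P272.K Vale.Agent.P285.H281.FD Vale.Agent.P281Z Vale.Agent.P280Z
open Vale.Agent.P277.HD (pull)
open Vale.Agent.P285N.Tp (Rd flc FLC Wf nefp Eff)
open Vale.Agent.P285N.St (SubPair Psef Iso)
open Vale.Agent.P285S (Pse)
open Vale.Agent.P285S.St (Covered HasSec Kappa)
open Vale.Agent.P280Z.Co (ct ct_ok)
open Vale.Agent.P285T.Cb (Ud ONE0 CBF)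
open Vale.Agent.P270H (CBG ST0 CRP FK0 FK1 WPR FPD PSB AMB GDW GUP Ok Sm pse_up)
open Vale.Agent.P270U (Kp Mp FKE NED TRU)

namespace Vale.Agent.P270V

/-- **KN** -/
def KN : Prop := ∀ (n d r i j : ℕ) (V : Mf n) (Q : Rd V) (D : Bd V.X) (t : D.ι → V.X → ℂ) (q : ℕ)
  (C M B : Bd V.X), Q.Ok → SubPair n Q.E Q.s D t q C → Psef n C → IsLB n M →
  P285N.Tp.Nf V M → Iso n Q.L (C.mul M) → Eff n C ∨ n ≤ 5 → IsLB n B →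
  ct.c1 V B = (i : ℝ) • ct.c1 V C + (j : ℝ) • ct.c1 V M → Kp V B r → n ≤ d + r + 4 →
  ¬ Neg n (P285W.Bs.Gd ct V (ct.c1 V Q.L) d) → NumSemiample n Q.L

theorem mpn (h0 : P270U.MP0) (h1 : MPM) {T : CT} (hT : T.OK) (hF : FLC T) {n r k i j : ℕ}
    {V Z : Mf n} {π : Z.X → V.X} {S : Set V.X} {L C M B : Bd V.X} (cV : P285W.Bs.Cp V)
    (pZ : Z.Prj) (hπ : Modif n π S) (lL : IsLB n L) (lC : IsLB n C) (lM : IsLB n M)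
    (lB : IsLB n B) (hC : Psef n C) (nM : P285N.Tp.Nf V M) (e : T.c1 V L = T.c1 V C + T.c1 V M)
    (eB : T.c1 V B = (i : ℝ) • T.c1 V C + (j : ℝ) • T.c1 V M) (hk : 0 < k) (hp : Kp V B r) :
    ∃ a, Mp Z (((pull π L).pow k).pow a) r := by
  have := cV.conn
  have hh := hπ.hol
  obtain ⟨b, hb⟩ := h0 T hT hF n r 1 V Z π S _ _ cV pZ hπ lB (hh.lb lB) one_pos
    (one_smul _ _).symm hp
  obtain ⟨k, rfl⟩ : ∃ k', k = k' + 1 := ⟨k - 1, by omega⟩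
  have l1 := lb_pow (hh.lb lL) (k + 1)
  refine ⟨b * (i + j), h1 T hT n r (b * (k * (i + j) + j)) (b * (k * (i + j) + i)) Z _ _ _ _
    ⟨hπ.conn, pZ⟩ (lb_pow (hh.lb lB) b) (lb_pow l1 _) (hh.lb lC)
    ((congrArg (P285S.Pse Z) (one_smul _ _)).mp (pse_up hπ cV.prj lC hC 1))
    (P285W.J.nf_pull hT hh (P285W.J.nf_of hT cV.prj lM nM)) ?_ hb⟩
  rw [hT.c1.pow _ _ _ l1, hT.c1.pow _ _ _ (hh.lb lL), hT.c1.pow _ _ _ (hh.lb lB),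
    hT.c1.pull hh _ lL, hT.c1.pull hh _ lB, hT.c1.pull hh _ lC, e, eB, map_add,
    map_add, map_smul, map_smul]
  push_cast
  module

/-- **KN** from the rows -/
theorem kn_of (cb : CBG) (ns : P270G.NSD) (st0 : ST0) (crp : CRP) (fk0 : FK0) (fk1 : FK1)
    (one0 : ONE0) (cbf : CBF) (wpr : WPR) (fpd : FPD) (psb : PSB) (amb : AMB) (gdw : GDW)
    (gup : GUP) (en : P270H.END) (fke : FKE) (ned : NED) (tru : TRU) (gf0 : GF0)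
    (mp0 : P270U.MP0) (mpm : MPM) (mpu : MPU) (bgs : BGS) : KN := by
  intro n d r i j V Q D t q C L B₀ hQ K hC lL nL iso hE lB eB hk hn hd
  obtain ⟨d', h1, h2, h3⟩ := P285T.Cb.AsmH.mx
    (p := fun d => ¬ Neg n (P285W.Bs.Gd ct V (ct.c1 V Q.L) d)) (fun _ => P285T.Cb.AsmH.gd_le) hd
  have h4 := P285T.Cb.AsmH.gd_le h2
  by_cases c : n ≤ d' + 4
  · exact cb n d' V Q D t q C L hQ K hC lL nL iso c h2
  have lQ := hQ.bir.res.lbL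
  have cV : P285W.Bs.Cp V := ⟨hQ.conn, hQ.prj⟩
  have eL : ct.c1 V Q.L = ct.c1 V C + ct.c1 V L :=
    (P270G.Dn0H.c1_iso ct_ok lQ (lb_mul K.lb lL) iso).trans (ct_ok.c1.mul V _ _ K.lb lL)
  rcases d' with _ | e
  · obtain ⟨κ, ι, _, A, m, N, π, S, k, M', hπ, k0, g⟩ := gf0 n V Q D t q C L hQ K hC lL nL iso
    obtain ⟨a, ha⟩ := mpn mp0 mpm ct_ok flc cV g.ok.prj hπ lQ K.lb lL lB hC nL eL eB k0 hk
    have e1 : ct.c1 A.Z ((pull π Q.L).pow k) = (k : ℝ) • ct.pull hπ.hol (ct.c1 V Q.L) := by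
      rw [ct_ok.c1.pow _ _ _ (hπ.hol.lb lQ), ct_ok.c1.pull hπ.hol _ lQ]
    obtain ⟨Y, τ, S', hτ, P, z, y1, y2, y3, y4, y5⟩ := Sm.down ct_ok hπ k0 e1
      (bgs n ct ct_ok κ ι A m N flc _ M' a r g ha (by omega) (e1 ▸ tru ct ct_ok n A.Z V π S hπ _ k
        cV g.ok.prj (Nat.cast_pos.2 k0) (.inr ⟨ct_ok.c1.deg V Q.L, not_not.1 h3⟩)))
    exact ns ct ct_ok flc n V Y τ S' hτ _ P z cV y1 lQ y2 y3 y4 y5
  replace hE := hE.resolve_right (by omega)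
  obtain ⟨w, rfl⟩ : ∃ w, n = w + (e + 1) := ⟨n - (e + 1), by omega⟩
  obtain ⟨M, U, E, hU, h5⟩ := st0 ct ct_ok w e V Q D t q C L hQ K hC lL nL iso h2 (not_not.1 h3)
  obtain ⟨m, h6⟩ := one0 w (e + 1) M hU.fb (Mf.Prj.kah hU.ok.prj) (Mf.Prj.kah hU.prj)
    (fk0 ct ct_ok flc w e V Q M U C E hU h5) (fk1 ct ct_ok flc w e V Q M U C E hU)
  obtain ⟨M₀, F, A, u, v, ⟨U₀, E₀, k0⟩, k1, k2, k3, k4, k5⟩ := cbf w (e + 1) m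
    (fun M => ∃ (U : Ud Q M) (E : Bd M.Y.X), Ok ct U C E) (fun _ ⟨_, _, k⟩ => ⟨k.ok.prj, k.prj⟩)
    (fun M M₁ u v ⟨U, E, k⟩ a b c d f =>
      (crp ct ct_ok flc w e V Q M U C E k M₁ u v a b c d f).imp fun _ k => k.imp fun _ k => k.1)
    M ⟨U, E, hU⟩ h6
  obtain ⟨U₁, E₁, k6, k7⟩ := crp ct ct_ok flc w e V Q M₀ U₀ C E₀ k0 F.T.toFb u v k1.or.sn.ok k2 k3
    k4 k1.or.sn.connG
  obtain ⟨B, A', z, b1, b2⟩ := wpr ct ct_ok flc w e m V Q F A U₁ C E₁ k6 k1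
    fun l => (k5 l).imp_left (k7 l)
  obtain ⟨S₀, hπ⟩ := k6.md
  have ps : Pse F.T.Y (cls w B.P) := psb ct ct_ok _ w F.T.X F.T.Y _ k6.fb.fibn.hol U₁.P B.P
    (z * U₁.c) ⟨k6.ok.conn, k6.ok.prj⟩ b1.cp k6.fb.fibn.surj k6.ok.lb b1.lb
    (by rw [b2.cl, map_smul, k6.cE, smul_smul, Nat.cast_mul])
    (k6.cl ▸ pse_up hπ hQ.prj k6.lbC hC _)
  obtain ⟨κ, ι, _, P, μ, N, τ, z', b3, b4⟩ := gdw w _ B b1 (amb w _ B b1 (fke w _ B b1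
    (ned ct ct_ok flc w e V Q _ U₁ C E₁ k6 hE B.P z b1.lb b2.cl)))
  obtain ⟨M', b5⟩ := gup ct ct_ok w _ B κ ι P μ N τ z' z U₁.D E₁ b1 ps b3 b4 k6.lbD k6.lbE k6.nfD
    k6.nfE b2.cl (fpd ct ct_ok flc w e V Q _ U₁ C E₁ k6 B A' z b1 b2)
  obtain ⟨S, hτ⟩ := b3.md
  have z0 := Nat.mul_pos b3.zp b2.zp
  have e1 : ct.c1 P.Z ((pull τ U₁.D).pow (z' * z)) =
      ((z' * z : ℕ) : ℝ) • ct.pull hτ.hol (ct.c1 _ U₁.D) := by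
    rw [ct_ok.c1.pow _ _ _ (hτ.hol.lb k6.lbD), ct_ok.c1.pull hτ.hol _ k6.lbD]
  obtain ⟨a, ha⟩ := mpu ct ct_ok flc w e V Q _ U₁ C E₁ k6 r (z' * z) i j P.Z τ S hτ _ _ hC lB
    (by rw [eB, eL, add_sub_cancel_left]) hk b3.ok.prj b5.lb z0 e1
  exact en ct ct_ok flc w e V Q _ U₁ C E₁ k6 (Sm.down ct_ok hτ z0 e1
    (bgs w ct ct_ok κ ι P μ N flc _ M' a r b5 ha (by omega) (e1 ▸ tru ct ct_ok w P.Z _ τ S hτ _ _
      b1.cp b3.ok.prj (Nat.cast_pos.2 z0) (.inl k6.ntb))))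

variable {n d r i j : ℕ} {V : Mf n} {Q : Rd V} {D : Bd V.X} {t : D.ι → V.X → ℂ} {q : ℕ}
  {C M F : Bd V.X} {w : Wf V}

theorem kn1 (g : KN) (hQ : Q.Ok) (hw : IsKahler w) (h : SubPair n Q.E Q.s D t q C)
    (hC : Psef n C) (hM : IsLB n M) (hn : Nef w M) (hi : Iso n Q.L (C.mul M))
    (he : HasSec n C ∨ n ≤ 5) (lF : IsLB n F) (hF : Flat n F)
    (hk : Kappa n r (((C.pow i).mul (M.pow j)).mul F)) (hd : n ≤ d + r + 4)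
    (hc : d = 0 ∨ Covered n d Q.L) : NumSemiample n Q.L := by
  have l1 := lb_mul (lb_pow h.lb i) (lb_pow hM j)
  refine g n d r i j V Q D t q C M _ hQ h hC hM
    ((nefp n n V V (fun x => x) _ contMDiff_id hM).1 w hw hn) hi he (lb_mul l1 lF) ?_ (kp_of hk) hd
    (hc.elim (fun e => e ▸ gd0 hQ.conn) (P285T.Cb.cov_gd hQ.conn hQ.bir.res.lbL))
  rw [ct_ok.c1.mul V _ _ l1 lF, (flc V F hQ.prj.kah lF).2 hF, add_zero,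
    ct_ok.c1.mul V _ _ (lb_pow h.lb i) (lb_pow hM j), ct_ok.c1.pow V _ _ h.lb,
    ct_ok.c1.pow V _ _ hM]

end Vale.Agent.P270V
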