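import Vale.Agent.P270V.Defs
import Vale.Agent.P270H.Top
import Vale.Agent.P270H.Fin
import Vale.Agent.P270G.Dn0
import Vale.Agent.P285S.Stmt6
import Vale.Agent.P281Z.Rs.Zero

/-!
# P270V: the assembly
-/

open Set
open Vale.Agent.P272.K Vale.Agent.P285.H281.FD Vale.Agent.P281Z Vale.Agent.P280Z
open Vale.Agent.P277.HD (pull)
open Vale.Agent.P285Z (St.logCan St.Divisor)
open Vale.Agent.P285N.Tp (Rd flc Wf nefp Eff)
open Vale.Agent.P285N.St (SubPair Psef Iso)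
open Vale.Agent.P285S (Pse)
open Vale.Agent.P285S.St (Covered HasSec Kappa)
open Vale.Agent.P280Z.Co (ct ct_ok)
open Vale.Agent.P285T.Cb (Ud ONE0 CBF)
open Vale.Agent.P270H (CBG ST0 CRP FK0 FK1 WPR FPD PSB AMB GDW GUP Ok Sm pse_up)
open Vale.Agent.P270U (Kp FKE NED TRU)

namespace Vale.Agent.P270V

/-- **KG** from the rows -/
theorem kg_of (cb : CBG) (ns : P270G.NSD) (st0 : ST0) (crp : CRP) (fk0 : FK0) (fk1 : FK1)
    (one0 : ONE0) (cbf : CBF) (wpr : WPR) (fpd : FPD) (psb : PSB) (amb : AMB) (gdw : GDW)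
    (gup : GUP) (en : P270H.END) (fke : FKE) (ned : NED) (tru : TRU) (gf0 : GF0) (mp0 : MP0)
    (mpu : MPU) (bgs : BGS) : KG := by
  intro n d r i j V Q D t q C L hQ K hC lL nL iso hE hk hn hd
  obtain ⟨d', h1, h2, h3⟩ := P285T.Cb.AsmH.mx
    (p := fun d => ¬ Neg n (P285W.Bs.Gd ct V (ct.c1 V Q.L) d)) (fun _ => P285T.Cb.AsmH.gd_le) hd
  have h4 := P285T.Cb.AsmH.gd_le h2
  by_cases c : n ≤ d' + 4
  · exact cb n d' V Q D t q C L hQ K hC lL nL iso c h2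
  have lQ := hQ.bir.res.lbL
  have cV : P285W.Bs.Cp V := ⟨hQ.conn, hQ.prj⟩
  have eL : ct.c1 V Q.L = ct.c1 V C + ct.c1 V L :=
    (P270G.Dn0H.c1_iso ct_ok lQ (lb_mul K.lb lL) iso).trans (ct_ok.c1.mul V _ _ K.lb lL)
  rcases d' with _ | e
  · obtain ⟨κ, ι, _, A, m, N, π, S, k, M', hπ, k0, g⟩ := gf0 n V Q D t q C L hQ K hC lL nL iso
    obtain ⟨a, ha⟩ := mp0 ct ct_ok flc n r k i j V A.Z π S Q.L C L cV g.ok.prj hπ lQ K.lb lL hC nL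
      eL k0 hk
    have e1 : ct.c1 A.Z ((pull π Q.L).pow k) = (k : ℝ) • ct.pull hπ.hol (ct.c1 V Q.L) := by
      rw [ct_ok.c1.pow _ _ _ (hπ.hol.lb lQ), ct_ok.c1.pull hπ.hol _ lQ]
    obtain ⟨Y, τ, S', hτ, P, z, y1, y2, y3, y4, y5⟩ := Sm.down ct_ok hπ k0 e1
      (bgs n ct ct_ok κ ι A m N flc _ M' a r g ha (by omega) (e1 ▸ tru ct ct_ok n A.Z V π S hπ _ k
        cV g.ok.prj (Nat.cast_pos.2 k0) (.inr ⟨ct_ok.c1.deg V Q.L, not_not.1 h3⟩)))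
    exact ns ct ct_ok flc n V Y τ S' hτ _ P z cV y1 lQ y2 y3 y4 y5
  replace hE := hE.resolve_right (by omega)
  obtain ⟨w, rfl⟩ : ∃ w, n = w + (e + 1) := ⟨n - (e + 1), by omega⟩
  obtain ⟨M, U, E, hU, h5⟩ := st0 ct ct_ok w e V Q D t q C L hQ K hC lL nL iso h2 (not_not.1 h3)
  obtain ⟨m, h6⟩ := one0 w (e + 1) M hU.fb (Mf.Prj.kah hU.ok.prj) (Mf.Prj.kah hU.prj)
    (fk0 ct ct_ok flc w e V Q M U C E hU h5) (fk1 ct ct_ok flc w e V Q M U C E hU)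
  obtain ⟨M₀, F, A, u, v, ⟨U₀, E₀, k0⟩, k1, k2, k3, k4, k5⟩ := cbf w (e + 1) m
    (fun M => ∃ (U : Ud Q M) (E : Bd M.Y.X), Ok ct U C E) (fun _ ⟨_, _, k⟩ => ⟨k.ok.prj, k.prj⟩)
    (fun M M₁ u v ⟨U, E, k⟩ a b c d f =>
      (crp ct ct_ok flc w e V Q M U C E k M₁ u v a b c d f).imp fun _ k => k.imp fun _ k => k.1)
    M ⟨U, E, hU⟩ h6
  obtain ⟨U₁, E₁, k6, k7⟩ := crp ct ct_ok flc w e V Q M₀ U₀ C E₀ k0 F.T.toFb u v k1.or.sn.ok k2 k3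
    k4 k1.or.sn.connG
  obtain ⟨B, A', z, b1, b2⟩ := wpr ct ct_ok flc w e m V Q F A U₁ C E₁ k6 k1
    fun l => (k5 l).imp_left (k7 l)
  obtain ⟨S₀, hπ⟩ := k6.md
  have ps : Pse F.T.Y (cls w B.P) := psb ct ct_ok _ w F.T.X F.T.Y _ k6.fb.fibn.hol U₁.P B.P
    (z * U₁.c) ⟨k6.ok.conn, k6.ok.prj⟩ b1.cp k6.fb.fibn.surj k6.ok.lb b1.lb
    (by rw [b2.cl, map_smul, k6.cE, smul_smul, Nat.cast_mul])
    (k6.cl ▸ pse_up hπ hQ.prj k6.lbC hC _)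
  obtain ⟨κ, ι, _, P, μ, N, τ, z', b3, b4⟩ := gdw w _ B b1 (amb w _ B b1 (fke w _ B b1
    (ned ct ct_ok flc w e V Q _ U₁ C E₁ k6 hE B.P z b1.lb b2.cl)))
  obtain ⟨M', b5⟩ := gup ct ct_ok w _ B κ ι P μ N τ z' z U₁.D E₁ b1 ps b3 b4 k6.lbD k6.lbE k6.nfD
    k6.nfE b2.cl (fpd ct ct_ok flc w e V Q _ U₁ C E₁ k6 B A' z b1 b2)
  obtain ⟨S, hτ⟩ := b3.md
  have z0 := Nat.mul_pos b3.zp b2.zp
  have e1 : ct.c1 P.Z ((pull τ U₁.D).pow (z' * z)) =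
      ((z' * z : ℕ) : ℝ) • ct.pull hτ.hol (ct.c1 _ U₁.D) := by
    rw [ct_ok.c1.pow _ _ _ (hτ.hol.lb k6.lbD), ct_ok.c1.pull hτ.hol _ k6.lbD]
  obtain ⟨a, ha⟩ := mpu ct ct_ok flc w e V Q _ U₁ C E₁ k6 r (z' * z) i j P.Z τ S hτ _ _ hC
    (lb_mul (lb_pow K.lb i) (lb_pow lL j))
    (by rw [ct_ok.c1.mul V _ _ (lb_pow K.lb i) (lb_pow lL j), ct_ok.c1.pow V _ _ K.lb,
      ct_ok.c1.pow V _ _ lL, eL, add_sub_cancel_left]) hk b3.ok.prj b5.lb z0 e1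
  exact en ct ct_ok flc w e V Q _ U₁ C E₁ k6 (Sm.down ct_ok hτ z0 e1
    (bgs w ct ct_ok κ ι P μ N flc _ M' a r b5 ha (by omega) (e1 ▸ tru ct ct_ok w P.Z _ τ S hτ _ _
      b1.cp b3.ok.prj (Nat.cast_pos.2 z0) (.inl k6.ntb))))

variable {n d r i j : ℕ} {V : Mf n} {Q : Rd V} {D : Bd V.X} {t : D.ι → V.X → ℂ} {q : ℕ}
  {C M : Bd V.X} {w : Wf V}

theorem kp_of {L : Bd V.X} (h : Kappa n r L) : Kp V L r := by
  obtain ⟨m, hm, s, hs, a, x, e, he, ha, h0, h1⟩ := h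
  have hh : ∀ b : Fin r, P277Z.Hol n (fun y => s b.succ a y / s 0 a y) x := fun b =>
    (sec_hol (hs _) ha).div (sec_hol (hs 0) ha) h0
  refine ⟨m, s, hm, hs, x, trivial, a, ha, h0,
    P277Z.Slc.Ind.of_chart hh he ((P277Z.Slc.ind_iff_surj _).2 ?_)⟩
  rwa [fderiv_pi fun b => (hh b e he).differentiableAt] at h1

theorem gd0 {L : Bd V.X} (hc : ConnectedSpace V.X) : ¬ Neg n (P285W.Bs.Gd ct V (ct.c1 V L) 0) :=
  fun k => not_neg_univ (k.mono fun x _ => ⟨Rs.Zr.mf Unit, fun _ => x, holM_const x,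
    ⟨@ConnectedSpace.mk _ _ ⟨Set.Subsingleton.isPreconnected fun _ _ _ _ => rfl⟩ ⟨()⟩, Rs.Zr.prj _⟩,
    ⟨(), fun _ _ _ _ _ _ _ => Subsingleton.elim _ _⟩, ⟨(), rfl⟩,
    P285W.J.dg_zero ct_ok (P285W.J.dg_pull ct_ok (holM_const x) (ct_ok.c1.deg V L)) one_pos⟩)

theorem kv1 (g : KG) (hQ : Q.Ok) (hw : IsKahler w) (h : SubPair n Q.E Q.s D t q C)
    (hC : Psef n C) (hM : IsLB n M) (hn : Nef w M) (hi : Iso n Q.L (C.mul M))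
    (he : HasSec n C ∨ n ≤ 5) (hk : Kappa n r ((C.pow i).mul (M.pow j))) (hd : n ≤ d + r + 4)
    (hc : d = 0 ∨ Covered n d Q.L) : NumSemiample n Q.L :=
  g n d r i j V Q D t q C M hQ h hC hM ((nefp n n V V (fun x => x) _ contMDiff_id hM).1 w hw hn) hi
    he (kp_of hk) hd (hc.elim (fun e => e ▸ gd0 hQ.conn) (P285T.Cb.cov_gd hQ.conn hQ.bir.res.lbL))

theorem kv0 (g : KG) (hc : ConnectedSpace V.X) (hP : V.Prj) (hw : IsKahler w)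
    (hD : St.Divisor n D t) (hq : 1 ≤ q) (hk : Klt n q D t) (hC : Psef n (St.logCan n q D))
    (hM : IsLB n M) (hm : Nef w M) (hn : Nef w ((St.logCan n q D).mul M))
    (he : HasSec n (St.logCan n q D) ∨ n ≤ 5)
    (hK : Kappa n r (((St.logCan n q D).pow i).mul (M.pow j))) (hd : n ≤ d + r + 4)
    (h : d = 0 ∨ Covered n d ((St.logCan n q D).mul M)) :
    NumSemiample n ((St.logCan n q D).mul M) := by
  have hL := lb_mul (lb_mul (lb_pow (P277Z.Slc.isLB_can (n := n)) q) hD.lb) hM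
  obtain ⟨⟨A, N, S, hQ⟩, k⟩ := P285N.Tp.smo n V w _ hc hP hw hL hn
  exact kv1 g hQ hw (k D t q hD hq hk) hC hM hm (P285N.Tp.iso_refl hL) he hK hd h

end Vale.Agent.P270V
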